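import Vale.Agent.P046.CT.Sgf

/-! P046, sharp constant, row PS: `ps_der` and `ps_bd` are proved in `Sgf.lean`. -/
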